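import Vale.Agent.P286EX3.Gau
import Vale.Agent.P286EX7.Fd

/-!
# The projection to the forms of degree `0` and the filtration by the degree of forms
-/

set_option linter.all false

namespace Vale.Agent.P286EX

open CategoryTheory TensorProduct Vale.Agent.P286 Vale.Agent.P286.St Vale.Agent.P286.H847
  Vale.Agent.P286.H353 Vale.Agent.P286.H710 Vale.Agent.P286.H697 Vale.Agent.P286EX.Gau
open Vale.Agent.P286.H697.DGM (lT prT DRg)
open Vale.Agent.P286.H389 (outM outM_tmul)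

noncomputable section

section Pt

variable {A B : Type} [CommRing A] [Algebra ℂ A] [CommRing B] [Algebra ℂ B]
  {V W : Type} [AddCommGroup V] [Module A V] [AddCommGroup W] [Module B W]

/-- The part of degree `0` of a form. -/
abbrev aug0 (A : Type) [CommRing A] [Algebra ℂ A] : Om ℂ A →ₐ[A] A :=
  ExteriorAlgebra.algebraMapInv (R := A) (M := Ω[A⁄ℂ])

theorem aug0_io (m : Ω[A⁄ℂ]) : aug0 A (io1 m) = 0 := by
  simp [ExteriorAlgebra.algebraMapInv]

theorem aug0_dd (a : A) : aug0 A (Om.dd a) = 0 := aug0_io _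

theorem aug0_pos {p : ℕ} (hp : p ≠ 0) {u : Om ℂ A} (hu : u ∈ Om.gr ℂ A p) : aug0 A u = 0 := by
  induction hu using Om.gr_induction with
  | alg a => exact absurd rfl hp
  | cons p b y hy h => rw [map_mul, aug0_dd, zero_mul]
  | smul p a y _ h => rw [map_smul, h hp, smul_zero]
  | add p x y _ _ hx hy => rw [map_add, hx hp, hy hp, add_zero]

theorem aug0_sg (w : Om ℂ A) : aug0 A (Om.sg w) = aug0 A w := by
  induction w using Om.induction with
  | alg a => rw [Om.sg.commutes]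
  | dd a => rw [Om.sg_dd, map_neg, aug0_dd, neg_zero]
  | mul x y hx hy => rw [map_mul, map_mul, hx, hy, map_mul]
  | add x y hx hy => rw [map_add, map_add, hx, hy, map_add]

theorem aug0_sgz (n : ℤ) (w : Om ℂ A) : aug0 A (Om.sgz n w) = aug0 A w := by
  by_cases h : Even n
  · rw [Om.sgz_even h]
  · rw [Om.sgz_odd h, aug0_sg]

theorem aug0_d (w : Om ℂ A) : aug0 A (Om.d w) = 0 := by
  induction w using Om.induction with
  | alg a => rw [Om.d_algebraMap, aug0_dd]
  | dd a => rw [Om.d_dd, map_zero]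
  | mul x y hx hy => rw [Om.d_mul, map_add, map_mul, map_mul, hx, hy, mul_zero, zero_mul, add_zero]
  | add x y hx hy => rw [Om.d_add, map_add, hx, hy, add_zero]

theorem aug0_pb (f : A →ₐ[ℂ] B) (w : Om ℂ A) : aug0 B (Om.pb f w) = f (aug0 A w) := by
  induction w using Om.induction with
  | alg a => rw [Om.pb_alg, AlgHom.commutes, AlgHom.commutes]; rfl
  | dd a => rw [Om.pb_dd, aug0_dd, aug0_dd, map_zero]
  | mul x y hx hy => rw [map_mul, map_mul, hx, hy, map_mul, map_mul]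
  | add x y hx hy => rw [map_add, map_add, hx, hy, map_add, map_add]

theorem outM_one (x : V) : outM A V ((1 : Om ℂ A) ⊗ₜ[A] x) = x := H389.outM_inM x

theorem outM_smul (w : Om ℂ A) (x : DR ℂ A V) : outM A V (w • x) = aug0 A w • outM A V x := by
  induction x using DR.induction with
  | zero => rw [smul_zero, map_zero, smul_zero]
  | tmul w' x => rw [smul_tmul', smul_eq_mul, outM_tmul, outM_tmul, map_mul, mul_smul]
  | add x y hx hy => rw [smul_add, map_add, map_add, hx, hy, smul_add]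

theorem outM_dR (b : DB ℂ A) (C : FC ℂ A V) (x : DR ℂ A V) : outM A V (dR b C x) = 0 := by
  induction x using DR.induction with
  | zero => rw [map_zero, map_zero]
  | tmul w x =>
    have h : outM A V (nab b C x) = 0 := by
      rw [nab_apply, map_sum]
      exact Finset.sum_eq_zero fun i _ => by rw [outM_tmul, aug0_dd, zero_smul]
    rw [dR_tmul, map_add, outM_tmul, aug0_d, zero_smul, outM_smul, h, smul_zero, add_zero]
  | add x y hx hy => rw [map_add, map_add, hx, hy, add_zero]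

variable {V' : Type} [AddCommGroup V'] [Module A V']

theorem outM_szT (n : ℤ) (u : V →ₗ[A] V') (x : DR ℂ A V) :
    outM A V' (szT n u x) = u (outM A V x) := by
  induction x using DR.induction with
  | zero => simp
  | tmul w x => rw [szT_tmul, outM_tmul, outM_tmul, aug0_sgz, map_smul]
  | add x y hx hy => rw [map_add, map_add, hx, hy, map_add, map_add]

theorem outM_sgT (u : V →ₗ[A] V') (x : DR ℂ A V) : outM A V' (sgT u x) = u (outM A V x) := by
  induction x using DR.induction with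
  | zero => simp
  | tmul w x => rw [sgT_tmul, outM_tmul, outM_tmul, aug0_sg, map_smul]
  | add x y hx hy => rw [map_add, map_add, hx, hy, map_add, map_add]

theorem outM_lT (u : V →ₗ[A] V') (x : DR ℂ A V) : outM A V' (lT u x) = u (outM A V x) := by
  induction x using DR.induction with
  | zero => simp
  | tmul w x => rw [LinearMap.lTensor_tmul, outM_tmul, outM_tmul, map_smul]
  | add x y hx hy => rw [map_add, map_add, hx, hy, map_add, map_add]

theorem outM_pbT (f : A →ₐ[ℂ] B) (t : V →+ W) (ht : ∀ (a : A) m, t (a • m) = f a • t m)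
    (x : DR ℂ A V) : outM B W (pbT f t ht x) = t (outM A V x) := by
  induction x using DR.induction with
  | zero => simp
  | tmul w x => rw [pbT_tmul, outM_tmul, outM_tmul, aug0_pb, ht]
  | add x y hx hy => rw [map_add, map_add, hx, hy, map_add, map_add]

theorem one_outM (b : DB ℂ A) (x : DR ℂ A V) : (1 : Om ℂ A) ⊗ₜ[A] outM A V x = prT V 0 x := by
  have h : ∀ p, ∀ y ∈ DR.gr ℂ A V p, (1 : Om ℂ A) ⊗ₜ[A] outM A V y = prT V 0 y := by
    intro p y hy
    rcases eq_or_ne p 0 with rfl | hp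
    · exact (H389.inM_outM hy).trans (DGM.prT_of_mem hy).symm
    · rw [DGM.prT_of_ne hp hy]
      induction hy using DR.gr_ind with
      | zero => rw [map_zero, tmul_zero]
      | tmul w hw m => rw [outM_tmul, aug0_pos hp hw, zero_smul, tmul_zero]
      | add x y _ _ hx hy => rw [map_add, tmul_add, hx, hy, add_zero]
  rw [← DGM.sum_prT b x, map_sum, map_sum, tmul_sum]
  exact Finset.sum_congr rfl fun p _ => h p _ (DGM.prT_mem p x)

theorem outM_eq_zero (b : DB ℂ A) {x : DR ℂ A V} : outM A V x = 0 ↔ x ∈ fge V 1 := by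
  constructor
  · exact fun h => fge_succ (fge_zero x) (by rw [← one_outM b, h, tmul_zero])
  · intro h
    rw [← outM_one (A := A) (outM A V x), one_outM b, h 0 Nat.one_pos, map_zero]

theorem sub_one_outM (b : DB ℂ A) (x : DR ℂ A V) :
    x - (1 : Om ℂ A) ⊗ₜ[A] outM A V x ∈ fge V 1 :=
  (outM_eq_zero b).1 (by rw [map_sub, outM_one, sub_self])

theorem fge_szT (b : DB ℂ A) (n : ℤ) (u : V →ₗ[A] V') {p : ℕ} {x : DR ℂ A V} (hx : x ∈ fge V p) :
    szT n u x ∈ fge V' p :=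
  fge_ind b (Q := fun x => szT n u x ∈ fge V' p) (by rw [map_zero]; exact zero_mem _)
    (fun r hr w hw x => fge_tmul hr (Om.sgz_mem n hw) _)
    (fun x y hx hy => by rw [map_add]; exact add_mem hx hy) hx

theorem szT_zero_smul (u : V →ₗ[A] V') (w : Om ℂ A) (x : DR ℂ A V) :
    szT 0 u (w • x) = w • szT 0 u x := by rw [szT_smul, Om.sgz_zero]

theorem szT_zero_one (u : V →ₗ[A] V') (x : V) :
    szT 0 u ((1 : Om ℂ A) ⊗ₜ[A] x) - (1 : Om ℂ A) ⊗ₜ[A] u x ∈ fge V' 1 := by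
  rw [szT_tmul, Om.sgz_zero, sub_self]
  exact zero_mem _

theorem fge_pbT (b : DB ℂ A) (f : A →ₐ[ℂ] B) (t : V →+ W)
    (ht : ∀ (a : A) m, t (a • m) = f a • t m) {p : ℕ} {x : DR ℂ A V} (hx : x ∈ fge V p) :
    pbT f t ht x ∈ fge W p :=
  fge_ind b (Q := fun x => pbT f t ht x ∈ fge W p) (by rw [map_zero]; exact zero_mem _)
    (fun r hr w hw x => fge_tmul hr (Om.pb_mem f hw) _)
    (fun x y hx hy => by rw [map_add]; exact add_mem hx hy) hx

variable {i : Fin 3 → V →ₗ[A] V} {θ : Fin 3 → Om ℂ A}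

theorem fge_nE (b : DB ℂ A) (hθ : ∀ a, θ a ∈ Om.gr ℂ A 1) {p : ℕ} {x : DR ℂ A V}
    (hx : x ∈ fge V p) : nE i θ x ∈ fge V (p + 1) := by
  rw [nE_apply]
  exact Submodule.sum_mem _ fun a _ => fge_smul b (hθ a) (fge_sgT b _ hx)

theorem fge_eE_sub (b : DB ℂ A) (hθ : ∀ a, θ a ∈ Om.gr ℂ A 1) {p : ℕ} {x : DR ℂ A V}
    (hx : x ∈ fge V p) : eE i θ x - x ∈ fge V (p + 1) := by
  have h : ∀ y ∈ (fge V p).restrictScalars ℂ, nE i θ y ∈ (fge V p).restrictScalars ℂ :=
    fun y hy => fge_anti p.le_succ (fge_nE b hθ hy)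
  rw [eE, ex_sub, add_sub_cancel_left]
  exact fge_nE b hθ (add_mem (add_mem hx (((fge V p).restrictScalars ℂ).smul_mem _ (h _ hx)))
    (((fge V p).restrictScalars ℂ).smul_mem _ (h _ (h _ hx))))

theorem fge_eE (b : DB ℂ A) (hθ : ∀ a, θ a ∈ Om.gr ℂ A 1) {p : ℕ} {x : DR ℂ A V}
    (hx : x ∈ fge V p) : eE i θ x ∈ fge V p := by
  have h := add_mem (fge_anti p.le_succ (fge_eE_sub (i := i) b hθ hx)) hx
  rwa [sub_add_cancel] at h

theorem outM_eE (b : DB ℂ A) (hθ : ∀ a, θ a ∈ Om.gr ℂ A 1) (x : DR ℂ A V) :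
    outM A V (eE i θ x) = outM A V x := by
  rw [← sub_eq_zero, ← map_sub]
  exact (outM_eq_zero b).2 (fge_eE_sub b hθ (fge_zero x))

/-- The projection to the forms of degree `0`. -/
def pi0 (b : DB ℂ A) (K : DGM A) : GD.Hom (DRg b K) K.M where
  f := (outM A K.M.V).restrictScalars ℂ
  comm x := by
    change outM A K.M.V (K.D b x) = K.M.d (outM A K.M.V x)
    rw [DGM.D_apply, map_add, outM_dR, zero_add, outM_sgT, DGM.dA_apply]
  deg m x hx := by
    change outM A K.M.V x ∈ K.M.gr m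
    induction hx using K.gr_ind with
    | zero => rw [map_zero]; exact zero_mem _
    | tmul p i h w hw x hx =>
      rw [outM_tmul]
      rcases eq_or_ne p 0 with rfl | hp
      · rw [← h, Nat.cast_zero, zero_add]
        exact K.gr_smul _ _ _ hx
      · rw [aug0_pos hp hw, zero_smul]
        exact zero_mem _
    | add x y _ _ hx hy => rw [map_add]; exact add_mem hx hy

theorem pi0_apply (b : DB ℂ A) (K : DGM A) (x : DR ℂ A K.M.V) :
    (pi0 b K).f x = outM A K.M.V x := rfl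

theorem pi0_one (b : DB ℂ A) (K : DGM A) (x : K.M.V) :
    (pi0 b K).f ((1 : Om ℂ A) ⊗ₜ[A] x) = x := outM_one (A := A) x

theorem pi0_smul (b : DB ℂ A) (K : DGM A) (w : Om ℂ A) (x : DR ℂ A K.M.V) :
    (pi0 b K).f (w • x) = aug0 A w • (pi0 b K).f x := outM_smul w x

end Pt

variable {T : TSite} {S : GS T}

namespace HG

variable (K : HG S) {X Y : T.C}

/-- The projection to the forms of degree `0`. -/
def pi (X : T.C) : GD.Hom (K.gau.F X).M (K.K X).M := pi0 (bT T X) (K.K X)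

theorem pi_apply (x : K.V X) : (K.pi X).f x = outM (T.R X) (K.K X).M.V x := rfl

theorem pi_one (x : (K.K X).M.V) : (K.pi X).f ((1 : Om ℂ (T.R X)) ⊗ₜ[T.R X] x) = x :=
  outM_one (A := T.R X) x

theorem out_E (φ : X ⟶ Y) (x : K.V Y) : outM _ _ (K.E φ x) = outM _ _ x :=
  outM_eE (bT T Y) (S.θ_mem φ) x

theorem out_Ei (φ : X ⟶ Y) (x : K.V Y) : outM _ _ (K.Ei φ x) = outM _ _ x :=
  outM_eE (bT T Y) (fun a => neg_mem (S.θ_mem φ a)) x

theorem out_P (φ : X ⟶ Y) (x : K.V X) : outM _ _ (K.P φ x) = (K.t φ).f (outM _ _ x) :=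
  outM_pbT _ _ (K.t_smul φ) x

theorem out_gt (φ : X ⟶ Y) (x : K.V X) : outM _ _ (K.gt φ x) = (K.t φ).f (outM _ _ x) :=
  (K.out_E φ _).trans (K.out_P φ x)

theorem pi_t (φ : X ⟶ Y) (x : (K.gau.F X).M.V) :
    (K.pi Y).f (K.gau.t φ x) = (K.t φ).f ((K.pi X).f x) := K.out_gt φ x

theorem fge_E_sub (φ : X ⟶ Y) {p : ℕ} {x : K.V Y} (hx : x ∈ fge _ p) :
    K.E φ x - x ∈ fge (K.K Y).M.V (p + 1) := fge_eE_sub (bT T Y) (S.θ_mem φ) hx

theorem fge_Ei_sub (φ : X ⟶ Y) {p : ℕ} {x : K.V Y} (hx : x ∈ fge _ p) :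
    K.Ei φ x - x ∈ fge (K.K Y).M.V (p + 1) :=
  fge_eE_sub (bT T Y) (fun a => neg_mem (S.θ_mem φ a)) hx

theorem fge_E (φ : X ⟶ Y) {p : ℕ} {x : K.V Y} (hx : x ∈ fge _ p) :
    K.E φ x ∈ fge (K.K Y).M.V p := fge_eE (bT T Y) (S.θ_mem φ) hx

theorem fge_P (φ : X ⟶ Y) {p : ℕ} {x : K.V X} (hx : x ∈ fge _ p) :
    K.P φ x ∈ fge (K.K Y).M.V p := fge_pbT (bT T X) _ _ (K.t_smul φ) hx

theorem fge_gt (φ : X ⟶ Y) {p : ℕ} {x : K.V X} (hx : x ∈ fge _ p) :
    K.gt φ x ∈ fge (K.K Y).M.V p := K.fge_E φ (K.fge_P φ hx)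

theorem fge_gt_sub (φ : X ⟶ Y) {p : ℕ} {x : K.V X} (hx : x ∈ fge _ p) :
    K.gt φ x - K.P φ x ∈ fge (K.K Y).M.V (p + 1) := K.fge_E_sub φ (K.fge_P φ hx)

theorem gt_one (φ : X ⟶ Y) (x : (K.K X).M.V) : K.gt φ ((1 : Om ℂ (T.R X)) ⊗ₜ[T.R X] x) -
    (1 : Om ℂ (T.R Y)) ⊗ₜ[T.R Y] (K.t φ).f x ∈ fge (K.K Y).M.V 1 :=
  (outM_eq_zero (bT T Y)).1 (by rw [map_sub, out_gt, outM_one, outM_one, sub_self])

variable {K} {K' : HG S}

theorem pi_gauC {n : ℤ} (u : (hgF S).P K K' n) (x : (K.gau.F X).M.V) :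
    (K'.pi X).f ((gauC u).1 X x) = u.1 X ((K.pi X).f x) := outM_szT n (lin u X) x

/-- The morphism of de Rham complexes defined by a closed morphism. -/
def gauH (a : zo (C := hgc S) K ⟶ zo (C := hgc S) K') (X : T.C) :
    GD.Hom (drO (bT T X) (K.K X)).M (drO (bT T X) (K'.K X)).M :=
  (otF T).hom ((gauD S).z0.map a) X

theorem gauH_apply (a : zo (C := hgc S) K ⟶ zo (C := hgc S) K') (X : T.C) (x : K.V X) :
    (gauH a X).f x = szT 0 (lin (zf a) X) x := rfl

/-- The functor `gauD` sends pointwise quasi-isomorphisms to filtered quasi-isomorphisms. -/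
theorem gau_fqis (a : zo (C := hgc S) K ⟶ zo (C := hgc S) K') (X : T.C)
    (h : GD.Qis ((hgF S).hom a X)) :
    FQis (Fil.dr (bT T X) (K.K X)) (Fil.dr (bT T X) (K'.K X)) (gauH a X) :=
  fqis_dr (bT T X) (K := K.K X) (L := K'.K X) ((hgF S).hom a X) (lin (zf a) X).map_smul h _
    (fun w x => szT_zero_smul (lin (K := K) (K' := K') (zf a) X) w x)
    fun x => szT_zero_one (lin (K := K) (K' := K') (zf a) X) x

end HG

theorem gau_qis {K K' : Z0 (hgc S)} (a : K ⟶ K') (X : T.C) (h : GD.Qis ((hgF S).hom a X)) :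
    GD.Qis ((otF T).hom ((gauD S).z0.map a) X) := (HG.gau_fqis a X h).qis

end

end Vale.Agent.P286EX
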