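import Vale.Agent.P286EX3.Pt

/-!
# The DG functors `ofG` and `gauD`
-/

set_option linter.all false

namespace Vale.Agent.P286EX

open CategoryTheory TensorProduct Vale.Agent.P286 Vale.Agent.P286.St Vale.Agent.P286.H847
  Vale.Agent.P286.H353 Vale.Agent.P286.H710 Vale.Agent.P286.H697 Vale.Agent.P286EX.Gau
open Vale.Agent.P286.H697.DGM (lT)

noncomputable section

variable {T : TSite} {S : GS T}

/-- The forms `θ^a` of an arrow. -/
def GS.θ (S : GS T) {X Y : T.C} (φ : X ⟶ Y) : Fin 3 → Om ℂ (T.R Y) := fun a => io1 (S.th φ a)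

theorem GS.θ_mem (S : GS T) {X Y : T.C} (φ : X ⟶ Y) (a : Fin 3) : S.θ φ a ∈ Om.gr ℂ (T.R Y) 1 :=
  Om.ι_mem _

namespace HG

variable (K : HG S) {X Y Z : T.C}

/-- The de Rham complex over `X`, ungraded. -/
abbrev V (X : T.C) : Type := DR ℂ (T.R X) (K.K X).M.V

/-- The pull-back of forms with coefficients. -/
def P (φ : X ⟶ Y) : K.V X →ₗ[ℂ] K.V Y := pbC (T.f φ) (K.t φ).f.toAddMonoidHom (K.t_smul φ)

/-- The operator `exp (∑ θ^a i_a)`. -/
def E (φ : X ⟶ Y) : Module.End ℂ (K.V Y) := eE (K.i Y) (S.θ φ)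

/-- The inverse of `E`. -/
def Ei (φ : X ⟶ Y) : Module.End ℂ (K.V Y) := eE (K.i Y) (-S.θ φ)

theorem P_tmul (φ : X ⟶ Y) (w : Om ℂ (T.R X)) (x : (K.K X).M.V) :
    K.P φ (w ⊗ₜ[T.R X] x) = Om.pb (T.f φ) w ⊗ₜ[T.R Y] (K.t φ).f x := rfl

theorem P_smul (φ : X ⟶ Y) (w : Om ℂ (T.R X)) (x : K.V X) :
    K.P φ (w • x) = Om.pb (T.f φ) w • K.P φ x := pbT_smul _ _ (K.t_smul φ) w x

theorem E_smul (φ : X ⟶ Y) (w : Om ℂ (T.R Y)) (x : K.V Y) : K.E φ (w • x) = w • K.E φ x :=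
  eE_smul (S.θ_mem φ) w x

theorem Ei_smul (φ : X ⟶ Y) (w : Om ℂ (T.R Y)) (x : K.V Y) : K.Ei φ (w • x) = w • K.Ei φ x :=
  eE_smul (fun a => neg_mem (S.θ_mem φ a)) w x

theorem Ei_E (φ : X ⟶ Y) (x : K.V Y) : K.Ei φ (K.E φ x) = x := eE_neg (K.i_i Y) (S.θ_mem φ) x

theorem E_Ei (φ : X ⟶ Y) (x : K.V Y) : K.E φ (K.Ei φ x) = x := eE_neg' (K.i_i Y) (S.θ_mem φ) x

theorem E_mem (φ : X ⟶ Y) {m : ℤ} {x : K.V Y} (hx : x ∈ (K.K Y).gr m) : K.E φ x ∈ (K.K Y).gr m :=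
  eE_mem _ (S.θ_mem φ) (K.i_gr Y) hx

theorem Ei_mem (φ : X ⟶ Y) {m : ℤ} {x : K.V Y} (hx : x ∈ (K.K Y).gr m) :
    K.Ei φ x ∈ (K.K Y).gr m := eE_mem _ (fun a => neg_mem (S.θ_mem φ a)) (K.i_gr Y) hx

theorem P_mem (φ : X ⟶ Y) {m : ℤ} {x : K.V X} (hx : x ∈ (K.K X).gr m) :
    K.P φ x ∈ (K.K Y).gr m := by
  induction hx using (K.K X).gr_ind with
  | zero => rw [map_zero]; exact zero_mem _
  | tmul q i h w' hw' x hx => exact (K.K Y).tmul_mem h (Om.pb_mem _ hw') ((K.t φ).deg i x hx)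
  | add x y _ _ hx hy => rw [map_add]; exact add_mem hx hy

theorem D_E (φ : X ⟶ Y) (x : K.V Y) : (K.K Y).D (bT T Y) (K.E φ x) =
    K.E φ ((K.K Y).D (bT T Y) x - lamE (fun a => lieOp (K.K Y) (K.i Y a)) (S.θ φ) x) :=
  D_eE _ _ S.κ (S.θ_mem φ) (K.i_i Y) (K.i_act Y) (K.i_br Y) (S.mc φ) x

theorem nab_t (φ : X ⟶ Y) (x : (K.K X).M.V) : nab (bT T Y) (K.K Y).C ((K.t φ).f x) =
    K.P φ (nab (bT T X) (K.K X).C x) - eta T φ ⊗ₜ[T.R Y] (K.t φ).f x +
      ∑ a, S.θ φ a ⊗ₜ[T.R Y] lieOp (K.K Y) (K.i Y a) ((K.t φ).f x) := by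
  have h1 := fun j => K.t_act φ ((bT T Y).v j) _ _ (bT T X).v
    (db_pull (T.f φ) (bT T X) ((bT T Y).v j)) x
  rw [nab_apply, nab_apply, map_sum]
  simp only [h1, tmul_add, tmul_sub, tmul_sum, Finset.sum_add_distrib, Finset.sum_sub_distrib,
    ← smul_tmul]
  rw [Finset.sum_comm, Finset.sum_comm (f := fun j a => _ ⊗ₜ[T.R Y] lieOp (K.K Y) (K.i Y a) _)]
  congr 1
  · congr 1
    · refine Finset.sum_congr rfl fun i _ => ?_
      rw [P_tmul, Om.pb_dd, ← sum_tmul, ← (bT T Y).dd]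
    · rw [← sum_tmul, eta, (bT T Y).dd, Finset.smul_sum]
      simp only [smul_smul]
  · refine Finset.sum_congr rfl fun a _ => ?_
    rw [← sum_tmul, form_eq]
    rfl

theorem D_P (φ : X ⟶ Y) (x : K.V X) : (K.K Y).D (bT T Y) (K.P φ x) -
    lamE (fun a => lieOp (K.K Y) (K.i Y a)) (S.θ φ) (K.P φ x) =
      K.P φ ((K.K X).D (bT T X) x) - eta T φ • K.P φ x := by
  induction x using DR.induction with
  | zero => simp
  | tmul w x =>
    rw [DGM.D_apply, DGM.D_apply, P_tmul, dR_tmul, dR_tmul, sgT_tmul, sgT_tmul, map_add, map_add,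
      P_tmul, P_tmul, P_smul, nab_t, lamE_apply, Om.pb_d, Om.pb_sg, DGM.dA_apply, DGM.dA_apply,
      (K.t φ).comm, smul_add, smul_sub, Finset.smul_sum, smul_tmul', smul_tmul', smul_eq_mul,
      smul_eq_mul, one_mul_sg (eta_mem φ)]
    have h : ∀ a ∈ Finset.univ, Om.sg (Om.pb (T.f φ) w) •
        (S.θ φ a ⊗ₜ[T.R Y] lieOp (K.K Y) (K.i Y a) ((K.t φ).f x)) = S.θ φ a •
          lT (lieOp (K.K Y) (K.i Y a)) (Om.pb (T.f φ) w ⊗ₜ[T.R Y] (K.t φ).f x) := fun a _ => by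
      rw [LinearMap.lTensor_tmul, smul_tmul', smul_tmul', smul_eq_mul, smul_eq_mul,
        one_mul_sg (S.θ_mem φ a)]
    rw [Finset.sum_congr rfl h]
    abel
  | add x y hx hy =>
    simp only [map_add, smul_add]
    rw [add_sub_add_comm, hx, hy, add_sub_add_comm]

theorem P_id (x : K.V X) : K.P (𝟙 X) x = x := by
  induction x using DR.induction with
  | zero => rw [map_zero]
  | tmul w x => rw [P_tmul, K.t_id, S.good.fid X, Om.pb_id]
  | add x y hx hy => rw [map_add, hx, hy]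

theorem P_comp (φ : X ⟶ Y) (ψ : Y ⟶ Z) (x : K.V X) : K.P (φ ≫ ψ) x = K.P ψ (K.P φ x) := by
  induction x using DR.induction with
  | zero => simp
  | tmul w x => rw [P_tmul, P_tmul, P_tmul, K.t_comp, S.good.fcomp φ ψ, Om.pb_pb]
  | add x y hx hy => rw [map_add, hx, hy, map_add, map_add]

theorem E_of_th (φ : X ⟶ Y) (h : ∀ a, S.th φ a = 0) (x : K.V Y) : K.E φ x = x := by
  have h1 : S.θ φ = 0 := funext fun a => by rw [GS.θ, h, io1, map_zero]; rfl
  rw [E, h1, eE_zero]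

theorem E_comp (φ : X ⟶ Y) (ψ : Y ⟶ Z) (x : K.V Y) :
    K.E (φ ≫ ψ) (K.P ψ x) = K.E ψ (K.P ψ (K.E φ x)) := by
  have h1 : S.θ (φ ≫ ψ) = S.θ ψ + fun a => ∑ b, S.ad ψ a b • Om.pb (T.f ψ) (S.θ φ b) :=
    funext (S.th_comp φ ψ)
  rw [E, h1]
  refine (eE_add (K.i_i Z) (S.θ_mem ψ) (fun a => Submodule.sum_mem _ fun b _ =>
    Submodule.smul_mem _ _ (Om.pb_mem _ (S.θ_mem φ b))) _).trans ?_
  exact congrArg (K.E ψ) (pbC_eE (T.f ψ) _ (K.t_smul ψ) (K.i Z) (S.ad ψ) (K.t_i ψ) x).symm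

/-- The transition maps. -/
def gt (φ : X ⟶ Y) : K.V X →ₗ[ℂ] K.V Y := K.E φ ∘ₗ K.P φ

theorem gt_apply (φ : X ⟶ Y) (x : K.V X) : K.gt φ x = K.E φ (K.P φ x) := rfl

theorem gt_d (φ : X ⟶ Y) (x : K.V X) : (K.K Y).D (bT T Y) (K.gt φ x) =
    K.gt φ ((K.K X).D (bT T X) x) - eta T φ • K.gt φ x := by
  rw [gt_apply, gt_apply, K.D_E, K.D_P, map_sub, K.E_smul]

theorem gt_smul (φ : X ⟶ Y) (w : Om ℂ (T.R X)) (x : K.V X) :
    K.gt φ (w • x) = Om.pb (T.f φ) w • K.gt φ x := by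
  rw [gt_apply, gt_apply, P_smul, E_smul]

theorem gt_id (x : K.V X) : K.gt (𝟙 X) x = x := by
  rw [gt_apply, K.E_of_th _ (S.th_id X), P_id]

theorem gt_comp (φ : X ⟶ Y) (ψ : Y ⟶ Z) (x : K.V X) : K.gt (φ ≫ ψ) x = K.gt ψ (K.gt φ x) := by
  rw [gt_apply, gt_apply, gt_apply, P_comp, E_comp]

/-- The twisted family of de Rham complexes of a gauge family. -/
def gau (K : HG S) : OT T where
  F X := drO (bT T X) (K.K X)
  t φ := K.gt φ
  t_gr φ _ _ hx := K.E_mem φ (K.P_mem φ hx)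
  t_d φ x := K.gt_d φ x
  t_smul φ w x := K.gt_smul φ w x
  t_id X x := K.gt_id x
  t_comp φ ψ x := K.gt_comp φ ψ x

theorem gau_F (X : T.C) : K.gau.F X = drO (bT T X) (K.K X) := rfl

theorem gau_t (φ : X ⟶ Y) (x : K.V X) : K.gau.t φ x = K.E φ (K.P φ x) := rfl

theorem t_tmul (φ : X ⟶ Y) (w : Om ℂ (T.R X)) (x : (K.K X).M.V) :
    K.gau.t φ (w ⊗ₜ[T.R X] x) = Om.pb (T.f φ) w • K.E φ (1 ⊗ₜ[T.R Y] (K.t φ).f x) := by
  rw [gau_t, P_tmul, ← E_smul, smul_tmul', smul_eq_mul, mul_one]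

theorem E_of_i (φ : X ⟶ Y) (h : K.i Y = 0) (x : K.V Y) : K.E φ x = x := by rw [E, h, eE_izero]

variable {K} {K' : HG S} {n : ℤ}

/-- The linear map of a cochain. -/
def lin (u : (hgF S).P K K' n) (X : T.C) : (K.K X).M.V →ₗ[T.R X] (K'.K X).M.V where
  toFun := u.1 X
  map_add' := map_add _
  map_smul' := HG.IsCo.smul u.2 X

theorem lin_apply (u : (hgF S).P K K' n) (X : T.C) (x : (K.K X).M.V) : lin u X x = u.1 X x := rfl

theorem szT_E (u : (hgF S).P K K' n) (φ : X ⟶ Y) (x : K.V Y) :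
    szT n (lin u Y) (K.E φ x) = K'.E φ (szT n (lin u Y) x) :=
  szT_eE (S.θ_mem φ) n _ _ (HG.IsCo.i u.2 Y) x

theorem szT_P (u : (hgF S).P K K' n) (φ : X ⟶ Y) (x : K.V X) :
    szT n (lin u Y) (K.P φ x) = K'.P φ (szT n (lin u X) x) :=
  pbT_szT (T.f φ) _ (K.t_smul φ) _ (K'.t_smul φ) n (lin u X) (lin u Y)
    (fun x => (HG.IsCo.tr u.2 φ x).symm) x

/-- The cochain of the de Rham complexes. -/
def gauC (u : (hgF S).P K K' n) : (otF T).P K.gau K'.gau n :=
  ⟨fun X => (szT n (lin u X)).restrictScalars ℂ,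
    (⟨fun X m x hx => szT_mem n (lin u X) (HG.IsCo.deg u.2 X) m x hx,
      fun X w x => szT_smul n (lin u X) w x,
      fun φ x => (szT_E u φ _).trans (congrArg (K'.E φ) (szT_P u φ x))⟩ :
        OT.IsCo K.gau K'.gau n _)⟩

theorem gauC_apply (u : (hgF S).P K K' n) (X : T.C) (x : K.V X) :
    (gauC u).1 X x = szT n (lin u X) x := rfl

/-- The linear map on cochains. -/
def gauL (K K' : HG S) (n : ℤ) : (hgF S).P K K' n →ₗ[ℂ] (otF T).P K.gau K'.gau n where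
  toFun := gauC
  map_add' u v := (otF T).ext' fun X x => szT_add n (lin u X) (lin v X) x
  map_smul' c u := (otF T).ext' fun X (x : K.V X) => by
    change szT n (lin (c • u) X) x = c • szT n (lin u X) x
    induction x using DR.induction with
    | zero => simp
    | tmul w x =>
      rw [szT_tmul, szT_tmul, smul_tmul']
      have h1 : lin (c • u) X x = (algebraMap ℂ (T.R X) c) • lin u X x :=
        (algebraMap_smul _ _ _).symm
      rw [h1, ← smul_tmul, algebraMap_smul]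
    | add x y hx hy => rw [map_add, hx, hy, map_add, smul_add]

end HG

/-- The DG functor from gauge families to twisted families of modules over the forms. -/
def gauD (S : GS T) : DGF (hgc S) (otc T) where
  obj K := HG.gau K
  map {K K'} n := HG.gauL K K' n
  map_one K := (otF T).ext' fun X (x : HG.V K X) => by
    change szT 0 (HG.lin ((hgc S).one K) X) x = x
    induction x using DR.induction with
    | zero => simp
    | tmul w x => rw [szT_tmul, Om.sgz_zero]; rfl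
    | add x y hx hy => rw [map_add, hx, hy]
  map_comp h u v := by
    subst h
    exact (otF T).ext' fun X x => (szT_szT _ _ (HG.lin u X) (HG.lin v X) x).symm
  map_d {K K'} m n u := by
    by_cases h : m + 1 = n
    · subst h
      refine (otF T).ext' fun X x => Eq.trans ?_ ((otF T).dif_f rfl (HG.gauC u) X x).symm
      exact (D_szT (bT T X) (K.K X) (K'.K X) m (HG.lin u X) (HG.lin ((hgF S).dif m _ u) X)
        (HG.IsCo.act u.2 X) ((hgF S).dif_f rfl u X) x).symm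
    · exact (congrArg (HG.gauL K K' n) ((hgF S).dif_ne h u)).trans
        ((map_zero (HG.gauL K K' n)).trans ((otF T).dif_ne h (HG.gauL K K' m u)).symm)

theorem gauD_obj (K : HG S) : (gauD S).obj K = K.gau := rfl

theorem gauD_map {K K' : HG S} (n : ℤ) (u : (hgF S).P K K' n) (X : T.C) (x : K.V X) :
    ((gauD S).map n u : (otF T).P K.gau K'.gau n).1 X x = szT n (HG.lin u X) x := rfl

theorem lieOp_zero {A : Type} [CommRing A] [Algebra ℂ A] (K : DGM A) : lieOp K 0 = 0 := by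
  rw [lieOp, LinearMap.comp_zero, LinearMap.zero_comp, add_zero]

/-- A complex of twisted `D`-modules as a gauge family. -/
def ofO (S : GS T) (K : GTD T) : HG S where
  K X := dgm K X
  i _ := 0
  i_gr _ _ _ _ _ := zero_mem _
  i_act X _ v _ := ((dgm K X).C.act_zero v).symm
  i_i _ _ _ _ := neg_zero.symm
  i_br X a b x := by simp
  t φ := K.tr φ
  t_smul {X Y} φ a x := (K.trans X Y φ).fn a x
  t_id := K.id
  t_comp φ ψ := K.comp _ _ _ φ ψ
  t_i φ b x := by simp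
  t_act {X Y} φ w n c v h x := by
    have h1 : T.dl φ • (dgm K Y).C.act w (tA K φ x) =
        T.dl φ • ∑ k, c k • tA K φ ((dgm K X).C.act (v k) x) - T.s • w (T.dl φ) • tA K φ x :=
      (K.trans X Y φ).vf w n c v h x
    have h2 := congrArg (Ring.inverse (T.dl φ) • ·) h1
    simp only [smul_sub, smul_smul, Ring.inverse_mul_cancel _ (S.good.unit φ), one_smul] at h2
    rw [← algebraMap_smul (T.R Y) T.s, smul_smul, smul_smul, mul_comm (Ring.inverse _)] at h2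
    simp only [Pi.zero_apply, lieOp_zero, LinearMap.zero_apply, smul_zero, Finset.sum_const_zero,
      add_zero]
    exact h2

/-- The linear map on cochains. -/
def ofL (S : GS T) (K K' : GTD T) (n : ℤ) :
    GTD.Coch K K' n →ₗ[ℂ] (hgF S).P (ofO S K) (ofO S K') n where
  toFun z := ⟨z.f, (⟨z.deg, z.fn, z.vf,
    fun X a x => (map_zero (z.f X)).trans (smul_zero _).symm, fun X a x => by
      change z.f X (lieOp (dgm K X) 0 x) = lieOp (dgm K' X) 0 _
      rw [lieOp_zero, lieOp_zero]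
      exact map_zero _, z.tr⟩ : HG.IsCo (ofO S K) (ofO S K') n _)⟩
  map_add' _ _ := rfl
  map_smul' _ _ := rfl

/-- The DG functor from complexes of twisted `D`-modules to gauge families. -/
def ofG (S : GS T) : DGF (gtc T) (hgc S) where
  obj K := ofO S K
  map {K K'} n := ofL S K K' n
  map_one K := rfl
  map_comp h u v := rfl
  map_d {K K'} m n u := by
    by_cases h : m + 1 = n
    · exact (hgF S).ext' fun X x =>
        (gdl_f h u X x).trans ((hgF S).dif_f h (ofL S K K' m u) X x).symm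
    · exact (congrArg (ofL S K K' n) (gdl_ne h u)).trans
        (Eq.trans rfl ((hgF S).dif_ne h (ofL S K K' m u)).symm)

theorem ofG_obj (K : GTD T) : (ofG S).obj K = ofO S K := rfl

theorem ofG_map {K K' : GTD T} (n : ℤ) (z : GTD.Coch K K' n) (X : T.C) (x : (K.F X).V) :
    ((ofG S).map n z : (hgF S).P (ofO S K) (ofO S K') n).1 X x = z.f X x := rfl

theorem ofO_t (K : GTD T) {X Y : T.C} (φ : X ⟶ Y) (x : (ofO S K).V X) :
    (ofO S K).gau.t φ x = pbT (T.f φ) (tA K φ) (tA_smul K φ) x := (ofO S K).E_of_i φ rfl _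

end

end Vale.Agent.P286EX
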