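import Vale.Agent.P286EX.Defs

/-!
# The exponential of `∑ θ^a i_a`: the abstract computation
-/

set_option linter.all false

namespace Vale.Agent.P286EX.Gau

noncomputable section

variable {R : Type} [Ring R] [Algebra ℂ R]

/-- The truncated exponential. -/
def ex (N : R) : R := 1 + N + (2⁻¹ : ℂ) • (N * N) + (6⁻¹ : ℂ) • (N * N * N)

theorem ex_zero : ex (0 : R) = 1 := by simp [ex]

theorem ex_add {N M : R} (h : M * N = N * M) (h1 : N * M * M * M = 0) (h2 : N * N * M * M = 0)
    (h3 : N * N * N * M = 0) : ex (N + M) = ex N * ex M := by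
  have h' : ∀ z, M * (N * z) = N * (M * z) := fun z => by rw [← mul_assoc, h, mul_assoc]
  have k1 : N * (M * (M * M)) = 0 := by simpa only [mul_assoc] using h1
  have k2 : N * (N * (M * M)) = 0 := by simpa only [mul_assoc] using h2
  have k3 : N * (N * (N * M)) = 0 := by simpa only [mul_assoc] using h3
  simp only [ex, mul_add, add_mul, mul_one, one_mul, smul_mul_assoc, mul_smul_comm, mul_assoc, h,
    h', k1, k2, k3, mul_zero, smul_zero, add_zero, smul_add]
  module

theorem ex_comm {N Z : R} (h : Z * N = N * Z) : Z * ex N = ex N * Z := by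
  have h' : ∀ z, Z * (N * z) = N * (Z * z) := fun z => by rw [← mul_assoc, h, mul_assoc]
  simp only [ex, mul_add, add_mul, mul_one, one_mul, smul_mul_assoc, mul_smul_comm, mul_assoc, h,
    h']

/-- The gauge identity. -/
theorem ex_gauge {D N Y L : R} (h4 : N * N * N * N = 0) (h1 : D * N = N * D + Y - L)
    (h2 : L * N = N * L + (2 : ℂ) • Y) (h3 : Y * N = N * Y) : D * ex N = ex N * (D - L) := by
  have a2 : D * (N * N) = N * N * D + (2 : ℂ) • (N * Y) - (2 : ℂ) • (N * L) - (2 : ℂ) • Y := by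
    rw [← mul_assoc, h1, sub_mul, add_mul, mul_assoc, h1, h2, h3]
    simp only [mul_add, mul_sub, mul_assoc]
    module
  have step : ∀ {P Q : R} {a b : ℂ},
      D * (P * N) = P * N * D + a • (P * Y) - a • (P * L) - b • (Q * Y) → P = Q * N →
      D * (P * N * N) = P * N * N * D + (a + 1) • (P * N * Y) - (a + 1) • (P * N * L) -
        (b + 2 * a) • (P * Y) := by
    intro P Q a b h hP
    rw [← mul_assoc D, h]
    simp only [sub_mul, add_mul, smul_mul_assoc, mul_assoc, h1, h2, h3, mul_add, mul_sub,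
      mul_smul_comm]
    rw [← mul_assoc Q, ← hP]
    module
  have a3 := step (P := N) (Q := 1) (by rw [a2, one_mul]) (one_mul N).symm
  have a4 := step a3 rfl
  have a5 := step a4 rfl
  simp only [h4, mul_zero, zero_mul, smul_zero, add_zero, zero_add, sub_zero, zero_sub] at a4 a5
  have b5 : N * N * N * Y = 0 := by
    have := congrArg (fun z => (-20⁻¹ : ℂ) • z) a5
    simp only [smul_zero, smul_neg, smul_smul] at this
    rw [this]
    module
  rw [b5] at a4
  have b4 : N * N * N * L = (-3 : ℂ) • (N * N * Y) := by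
    have := congrArg (fun z => (4⁻¹ : ℂ) • z) a4
    simp only [smul_zero] at this
    rw [← sub_eq_zero, ← neg_eq_zero, this]
    module
  simp only [ex, mul_add, add_mul, mul_one, one_mul, smul_mul_assoc, mul_smul_comm, mul_sub, a2,
    a3, h1, b4]
  module

/-- The operator `∑ θ^a i_a`. -/
def nn (T J : Fin 3 → R) : R := ∑ a, T a * J a

variable {J : Fin 3 → R}

theorem jj_zero (hJ : ∀ a b, J a * J b = -(J b * J a)) (a : Fin 3) : J a * J a = 0 := by
  have h := hJ a a
  have h1 : (2⁻¹ : ℂ) • (J a * J a + J a * J a) = J a * J a := by module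
  rw [← h1]
  nth_rw 1 [h]
  rw [neg_add_cancel, smul_zero]

theorem j4_zero (hJ : ∀ a b, J a * J b = -(J b * J a)) (a b c d : Fin 3) :
    J a * (J b * (J c * J d)) = 0 := by
  have z := jj_zero hJ
  have z' : ∀ a y, J a * (J a * y) = 0 := fun a y => by rw [← mul_assoc, z, zero_mul]
  have s : ∀ a b y, J a * (J b * y) = -(J b * (J a * y)) := fun a b y => by
    rw [← mul_assoc, hJ, neg_mul, mul_assoc]
  have h : a = b ∨ b = c ∨ c = d ∨ a = c ∨ b = d ∨ a = d := by
    revert a b c d
    decide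
  rcases h with rfl | rfl | rfl | rfl | rfl | rfl
  · exact z' _ _
  · rw [z', mul_zero]
  · rw [z, mul_zero, mul_zero]
  · rw [s, z', mul_zero, neg_zero]
  · rw [s b c, z, mul_zero, neg_zero, mul_zero]
  · rw [s a b, s a c, z, mul_zero, neg_zero, mul_zero, neg_zero]

theorem nn4 (hJ : ∀ a b, J a * J b = -(J b * J a)) {T1 T2 T3 T4 : Fin 3 → R}
    (h2 : ∀ a b, J a * T2 b = -(T2 b * J a)) (h3 : ∀ a b, J a * T3 b = -(T3 b * J a))
    (h4 : ∀ a b, J a * T4 b = -(T4 b * J a)) : nn T1 J * nn T2 J * nn T3 J * nn T4 J = 0 := by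
  have s : ∀ {T : Fin 3 → R}, (∀ a b, J a * T b = -(T b * J a)) →
      ∀ a b y, J a * (T b * y) = -(T b * (J a * y)) := fun h a b y => by
    rw [← mul_assoc, h, neg_mul, mul_assoc]
  simp only [nn, Finset.sum_mul, Finset.mul_sum]
  refine Finset.sum_eq_zero fun d _ => Finset.sum_eq_zero fun c _ =>
    Finset.sum_eq_zero fun b _ => Finset.sum_eq_zero fun a _ => ?_
  simp only [mul_assoc, s h2, s h3, s h4, mul_neg, neg_mul, neg_neg, j4_zero hJ, mul_zero, neg_zero]

theorem nn_comm (hJ : ∀ a b, J a * J b = -(J b * J a)) {T T' : Fin 3 → R}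
    (h : ∀ a b, J a * T b = -(T b * J a)) (h' : ∀ a b, J a * T' b = -(T' b * J a))
    (hT : ∀ a b, T a * T' b = -(T' b * T a)) : nn T' J * nn T J = nn T J * nn T' J := by
  simp only [nn, Finset.sum_mul, Finset.mul_sum]
  rw [Finset.sum_comm]
  refine Finset.sum_congr rfl fun b _ => Finset.sum_congr rfl fun a _ => ?_
  rw [mul_assoc, mul_assoc, ← mul_assoc (J b), ← mul_assoc (J a), h, h', neg_mul, neg_mul,
    mul_neg, mul_neg, mul_assoc, mul_assoc, ← mul_assoc, ← mul_assoc (T a), hT, hJ b a, mul_neg,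
    neg_mul]

theorem nn_add (T T' : Fin 3 → R) : nn (T + T') J = nn T J + nn T' J := by
  simp only [nn, Pi.add_apply, add_mul, Finset.sum_add_distrib]

theorem ex_nn_add (hJ : ∀ a b, J a * J b = -(J b * J a)) {T T' : Fin 3 → R}
    (h : ∀ a b, J a * T b = -(T b * J a)) (h' : ∀ a b, J a * T' b = -(T' b * J a))
    (hT : ∀ a b, T a * T' b = -(T' b * T a)) : ex (nn (T + T') J) = ex (nn T J) * ex (nn T' J) := by
  rw [nn_add]
  exact ex_add (nn_comm hJ h h' hT) (nn4 hJ h' h' h') (nn4 hJ h h' h') (nn4 hJ h h h')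

/-- **The gauge identity** `D E = E (D - θ^a L_a)`. -/
theorem gauge (κ : ℂ) {D : R} {T L : Fin 3 → R} (hJ : ∀ a b, J a * J b = -(J b * J a))
    (hT : ∀ a b, T a * T b = -(T b * T a)) (JT : ∀ a b, J a * T b = -(T b * J a))
    (LT : ∀ a b, L a * T b = T b * L a)
    (DT : ∀ c, D * T c = ∑ a, ∑ b, (κ / 2 * eps a b c) • (T a * T b) - T c * D)
    (DJ : ∀ a, D * J a = L a - J a * D)
    (LJ : ∀ a b, L a * J b = J b * L a + ∑ c, (κ * eps a b c) • J c) :
    D * ex (nn T J) = ex (nn T J) * (D - nn T L) := by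
  refine ex_gauge (Y := ∑ c, (∑ a, ∑ b, (κ / 2 * eps a b c) • (T a * T b)) * J c)
    (nn4 hJ JT JT JT) ?_ ?_ ?_
  · rw [nn, nn, Finset.mul_sum, Finset.sum_mul, ← Finset.sum_add_distrib, ← Finset.sum_sub_distrib]
    refine Finset.sum_congr rfl fun c _ => ?_
    rw [← mul_assoc, DT, sub_mul, mul_assoc, DJ, mul_sub, mul_assoc]
    abel
  · have e : ∀ a b, T a * L a * (T b * J b) =
        T b * J b * (T a * L a) + ∑ c, (κ * eps a b c) • (T a * T b * J c) := fun a b => by
      rw [mul_assoc, ← mul_assoc (L a), LT, mul_assoc, LJ, mul_add, mul_add, mul_assoc (T b),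
        ← mul_assoc (J b) (T a), JT, neg_mul, mul_neg, mul_assoc (T a), ← mul_assoc (T b) (T a),
        hT b a, neg_mul, neg_neg, mul_assoc (T a), Finset.mul_sum, Finset.mul_sum]
      simp only [mul_smul_comm, mul_assoc]
    rw [nn, nn, Finset.sum_mul_sum, Finset.sum_mul_sum, Finset.sum_comm (f := fun b a =>
      T b * J b * (T a * L a))]
    simp only [e, Finset.sum_add_distrib, Finset.sum_mul, Finset.smul_sum, smul_mul_assoc,
      smul_smul]
    congr 1
    rw [Finset.sum_comm (f := fun c a => ∑ b, (2 * (κ / 2 * eps a b c)) • (T a * T b * J c))]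
    refine Finset.sum_congr rfl fun a _ => ?_
    rw [Finset.sum_comm (f := fun c b => (2 * (κ / 2 * eps a b c)) • (T a * T b * J c))]
    refine Finset.sum_congr rfl fun b _ => Finset.sum_congr rfl fun c _ => ?_
    congr 1
    ring
  · have e : ∀ a b c d, T a * T b * J c * (T d * J d) = T d * J d * (T a * T b * J c) := by
      intro a b c d
      have s : ∀ a b y, J a * (T b * y) = -(T b * (J a * y)) := fun a b y => by
        rw [← mul_assoc, JT, neg_mul, mul_assoc]
      have s' : ∀ a y, T d * (T a * y) = -(T a * (T d * y)) := fun a y => by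
        rw [← mul_assoc, hT, neg_mul, mul_assoc]
      simp only [mul_assoc, s, mul_neg, neg_neg]
      rw [s' a, s' b, hJ d c]
      simp only [mul_neg, neg_neg]
    have e2 : ∀ a b c, T a * T b * J c * nn T J = nn T J * (T a * T b * J c) := fun a b c => by
      simp only [nn, Finset.sum_mul, Finset.mul_sum, e]
    generalize nn T J = N at e2 ⊢
    simp only [Finset.sum_mul, Finset.mul_sum, smul_mul_assoc, mul_smul_comm, e2]

end

end Vale.Agent.P286EX.Gau
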