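import Vale.Agent.P286EX3.Ex

/-!
# The operator `E = exp (∑ θ^a i_a)` on the de Rham complex
-/

set_option linter.all false

namespace Vale.Agent.P286EX

open TensorProduct Vale.Agent.P286 Vale.Agent.P286.H847 Vale.Agent.P286.H710
  Vale.Agent.P286.H697 Vale.Agent.P286EX.Gau
open Vale.Agent.P286.H697.DGM (lT)

noncomputable section

variable {A B : Type} [CommRing A] [Algebra ℂ A] [CommRing B] [Algebra ℂ B]

namespace Gau

theorem one_eq {w : Om ℂ A} (hw : w ∈ Om.gr ℂ A 1) : ∃ m, w = io1 m := by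
  have h : w ∈ LinearMap.range (ExteriorAlgebra.ι A (M := Ω[A⁄ℂ])) ^ 1 := hw
  rw [pow_one] at h
  obtain ⟨m, rfl⟩ := h
  exact ⟨m, rfl⟩

theorem sg_one {w : Om ℂ A} (hw : w ∈ Om.gr ℂ A 1) : Om.sg w = -w := by
  obtain ⟨m, rfl⟩ := one_eq hw
  exact Om.sg_ι m

theorem one_mul_sg {w : Om ℂ A} (hw : w ∈ Om.gr ℂ A 1) (x : Om ℂ A) : w * x = Om.sg x * w := by
  obtain ⟨m, rfl⟩ := one_eq hw
  exact Om.ι_mul m x

theorem sgz_one' {w : Om ℂ A} (hw : w ∈ Om.gr ℂ A 1) (n : ℤ) :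
    Om.sgz n w = (n.negOnePow : ℤ) • w := by
  by_cases h : Even n
  · rw [Om.sgz_even h, Int.negOnePow_even n h]
    simp
  · rw [Om.sgz_odd h, sg_one hw, Int.negOnePow_odd n (Int.not_even_iff_odd.1 h)]
    simp

theorem form_eq (b : DB ℂ A) (m : Ω[A⁄ℂ]) :
    ∑ j, (b.v j).liftKaehlerDifferential m • (Om.dd (b.x j) : Om ℂ A) = io1 m := by
  have h := LinearMap.congr_fun (crdInv_crd b) m
  rw [LinearMap.comp_apply, crdInv, Fintype.linearCombination_apply, LinearMap.id_apply] at h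
  conv_rhs => rw [← h, io1, map_sum]
  exact Finset.sum_congr rfl fun j _ => (map_smul _ _ _).symm

theorem db_pull (f : A →ₐ[ℂ] B) (b : DB ℂ A) (w : Derivation ℂ B B) (a : A) :
    w (f a) = ∑ i, w (f (b.x i)) * f (b.v i a) := by
  let _ : Algebra A B := f.toRingHom.toAlgebra
  have : IsScalarTower ℂ A B := IsScalarTower.of_algebraMap_eq fun r => (f.commutes r).symm
  let W : Derivation ℂ A B := w.compAlgebraMap A
  have h := congrArg W.liftKaehlerDifferential (b.h a)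
  rw [Derivation.liftKaehlerDifferential_comp_D, map_sum] at h
  refine h.trans (Finset.sum_congr rfl fun i _ => ?_)
  rw [map_smul, Derivation.liftKaehlerDifferential_comp_D, Algebra.smul_def, mul_comm]
  rfl

theorem ex_inter {V W : Type} [AddCommGroup V] [Module ℂ V] [AddCommGroup W] [Module ℂ W]
    (P : V →ₗ[ℂ] W) {N : Module.End ℂ V} {N' : Module.End ℂ W} (h : ∀ x, P (N x) = N' (P x))
    (x : V) : P (ex N x) = ex N' (P x) := by
  simp only [ex, LinearMap.add_apply, LinearMap.smul_apply, Module.End.mul_apply,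
    Module.End.one_apply, map_add, map_smul, h]

theorem ex_sub {V : Type} [AddCommGroup V] [Module ℂ V] (N : Module.End ℂ V) (x : V) :
    ex N x = x + N (x + (2⁻¹ : ℂ) • N x + (6⁻¹ : ℂ) • N (N x)) := by
  simp only [ex, LinearMap.add_apply, LinearMap.smul_apply, Module.End.mul_apply,
    Module.End.one_apply, map_add, map_smul, add_assoc]

theorem ex_mem {V : Type} [AddCommGroup V] [Module ℂ V] {N : Module.End ℂ V} {W : Submodule ℂ V}
    (h : ∀ x ∈ W, N x ∈ W) {x : V} (hx : x ∈ W) : ex N x ∈ W := by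
  rw [ex_sub]
  exact add_mem hx (h _ (add_mem (add_mem hx (W.smul_mem _ (h _ hx)))
    (W.smul_mem _ (h _ (h _ hx)))))

end Gau

variable {V W : Type} [AddCommGroup V] [Module A V] [AddCommGroup W] [Module B W]

/-- The multiplication by a form. -/
def muE (V : Type) [AddCommGroup V] [Module A V] (w : Om ℂ A) : Module.End ℂ (DR ℂ A V) where
  toFun x := w • x
  map_add' := smul_add w
  map_smul' c x := by
    rw [RingHom.id_apply, csmul_eq, csmul_eq, smul_smul, smul_smul, Algebra.commutes]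

/-- The odd operator `sg ⊗ u`. -/
def jE (u : V →ₗ[A] V) : Module.End ℂ (DR ℂ A V) := (sgT u).restrictScalars ℂ

/-- The even operator `1 ⊗ u`. -/
def lE (u : V →ₗ[A] V) : Module.End ℂ (DR ℂ A V) := (lT u).restrictScalars ℂ

theorem muE_apply (w : Om ℂ A) (x : DR ℂ A V) : muE V w x = w • x := rfl

theorem jE_apply (u : V →ₗ[A] V) (x : DR ℂ A V) : jE u x = sgT u x := rfl

theorem lE_apply (u : V →ₗ[A] V) (x : DR ℂ A V) : lE u x = lT u x := rfl

/-- The operator `∑ θ^a i_a`. -/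
def nE (i : Fin 3 → V →ₗ[A] V) (θ : Fin 3 → Om ℂ A) : Module.End ℂ (DR ℂ A V) :=
  nn (fun a => muE V (θ a)) fun a => jE (i a)

/-- The operator `∑ θ^a L_a`. -/
def lamE (L : Fin 3 → V →ₗ[A] V) (θ : Fin 3 → Om ℂ A) : Module.End ℂ (DR ℂ A V) :=
  nn (fun a => muE V (θ a)) fun a => lE (L a)

/-- The operator `exp (∑ θ^a i_a)`. -/
def eE (i : Fin 3 → V →ₗ[A] V) (θ : Fin 3 → Om ℂ A) : Module.End ℂ (DR ℂ A V) := ex (nE i θ)

variable {i : Fin 3 → V →ₗ[A] V} {θ θ' : Fin 3 → Om ℂ A}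

theorem nE_apply (x : DR ℂ A V) : nE i θ x = ∑ a, θ a • sgT (i a) x :=
  LinearMap.sum_apply _ _ _

theorem lamE_apply (x : DR ℂ A V) : lamE i θ x = ∑ a, θ a • lT (i a) x :=
  LinearMap.sum_apply _ _ _

theorem nE_smul (hθ : ∀ a, θ a ∈ Om.gr ℂ A 1) (w : Om ℂ A) (x : DR ℂ A V) :
    nE i θ (w • x) = w • nE i θ x := by
  rw [nE_apply, nE_apply, Finset.smul_sum]
  refine Finset.sum_congr rfl fun a _ => ?_
  rw [sgT_smul, smul_smul, smul_smul, one_mul_sg (hθ a), H710.Om.sg_sg]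

theorem eE_smul (hθ : ∀ a, θ a ∈ Om.gr ℂ A 1) (w : Om ℂ A) (x : DR ℂ A V) :
    eE i θ (w • x) = w • eE i θ x :=
  (ex_inter (muE V w) (fun x => (nE_smul hθ w x).symm) x).symm

theorem eE_zero (x : DR ℂ A V) : eE i 0 x = x := by
  have h : nE i 0 = 0 := LinearMap.ext fun x => by
    rw [nE_apply]
    exact Finset.sum_eq_zero fun a _ => zero_smul _ _
  rw [eE, h, ex_zero, Module.End.one_apply]

theorem eE_izero (x : DR ℂ A V) : eE (0 : Fin 3 → V →ₗ[A] V) θ x = x := by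
  have h : nE (0 : Fin 3 → V →ₗ[A] V) θ = 0 := LinearMap.ext fun x => by
    rw [nE_apply]
    refine Finset.sum_eq_zero fun a _ => ?_
    rw [Pi.zero_apply, sgT, TensorProduct.map_zero_right, LinearMap.zero_apply, smul_zero]
  rw [eE, h, ex_zero, Module.End.one_apply]

namespace Gau

theorem jj (hi : ∀ a b x, i a (i b x) = -i b (i a x)) (a b : Fin 3) :
    jE (i a) * jE (i b) = -(jE (i b) * jE (i a)) := LinearMap.ext fun x => by
  change sgT (i a) (sgT (i b) x) = -sgT (i b) (sgT (i a) x)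
  rw [sgT_sgT, sgT_sgT, ← DGM.lT_neg]
  congr 2
  exact LinearMap.ext (hi a b)

theorem jt (u : V →ₗ[A] V) {w : Om ℂ A} (hw : w ∈ Om.gr ℂ A 1) :
    jE u * muE V w = -(muE V w * jE u) := LinearMap.ext fun x => by
  change sgT u (w • x) = -(w • sgT u x)
  rw [sgT_smul, sg_one hw, DR.neg_smul]

theorem tt {w w' : Om ℂ A} (hw : w ∈ Om.gr ℂ A 1) (hw' : w' ∈ Om.gr ℂ A 1) :
    muE V w * muE V w' = -(muE V w' * muE V w) := LinearMap.ext fun x => by
  change w • w' • x = -(w' • w • x)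
  rw [smul_smul, smul_smul, one_mul_sg hw, sg_one hw', neg_mul, DR.neg_smul]

end Gau

theorem eE_add (hi : ∀ a b x, i a (i b x) = -i b (i a x)) (hθ : ∀ a, θ a ∈ Om.gr ℂ A 1)
    (hθ' : ∀ a, θ' a ∈ Om.gr ℂ A 1) (x : DR ℂ A V) : eE i (θ + θ') x = eE i θ (eE i θ' x) := by
  have h : (fun a => muE V ((θ + θ') a)) = (fun a => muE V (θ a)) + fun a => muE V (θ' a) :=
    funext fun a => LinearMap.ext fun x => add_smul _ _ _
  rw [eE, nE, h, ex_nn_add (jj hi) (fun a b => jt _ (hθ b)) (fun a b => jt _ (hθ' b))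
    fun a b => tt (hθ a) (hθ' b)]
  rfl

theorem eE_neg (hi : ∀ a b x, i a (i b x) = -i b (i a x)) (hθ : ∀ a, θ a ∈ Om.gr ℂ A 1)
    (x : DR ℂ A V) : eE i (-θ) (eE i θ x) = x := by
  rw [← eE_add (θ := -θ) hi (fun a => neg_mem (hθ a)) hθ, neg_add_cancel, eE_zero]

theorem eE_neg' (hi : ∀ a b x, i a (i b x) = -i b (i a x)) (hθ : ∀ a, θ a ∈ Om.gr ℂ A 1)
    (x : DR ℂ A V) : eE i θ (eE i (-θ) x) = x := by
  rw [← eE_add (θ' := -θ) hi hθ fun a => neg_mem (hθ a), add_neg_cancel, eE_zero]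

/-- The pull-back and the operators `E`. -/
theorem pbC_eE (f : A →ₐ[ℂ] B) (t : V →+ W) (ht : ∀ (a : A) m, t (a • m) = f a • t m)
    (i' : Fin 3 → W →ₗ[B] W) (c : Matrix (Fin 3) (Fin 3) B)
    (h : ∀ b x, t (i b x) = ∑ a, c a b • i' a (t x)) (x : DR ℂ A V) :
    pbC f t ht (eE i θ x) = eE i' (fun a => ∑ b, c a b • Om.pb f (θ b)) (pbC f t ht x) := by
  refine ex_inter _ (fun x => ?_) x
  rw [nE_apply, nE_apply, map_sum]
  simp only [Finset.sum_smul]
  rw [Finset.sum_comm]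
  refine Finset.sum_congr rfl fun b _ => ?_
  rw [pbC_apply, pbC_apply, pbT_smul,
    pbT_sgT f t ht t ht (i b) (∑ a, c a b • i' a) fun x => by
      rw [h, LinearMap.sum_apply]; rfl]
  generalize pbT f t ht x = y
  induction y using DR.induction with
  | zero => simp
  | tmul w y =>
    rw [sgT_tmul, LinearMap.sum_apply, tmul_sum, Finset.smul_sum]
    refine Finset.sum_congr rfl fun a _ => ?_
    rw [sgT_tmul, LinearMap.smul_apply, tmul_smul, smul_assoc, smul_comm]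
  | add y z hy hz => simp only [map_add, smul_add, hy, hz, Finset.sum_add_distrib]

/-- Signed maps and the operators `E`. -/
theorem szT_eE {V' : Type} [AddCommGroup V'] [Module A V'] (hθ : ∀ a, θ a ∈ Om.gr ℂ A 1) (n : ℤ)
    (u : V →ₗ[A] V') (i' : Fin 3 → V' →ₗ[A] V')
    (h : ∀ a x, u (i a x) = (n.negOnePow : ℤ) • i' a (u x)) (x : DR ℂ A V) :
    szT n u (eE i θ x) = eE i' θ (szT n u x) := by
  refine ex_inter ((szT n u).restrictScalars ℂ) (fun x => ?_) x
  change szT n u _ = nE i' θ (szT n u x)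
  rw [nE_apply, nE_apply, map_sum]
  refine Finset.sum_congr rfl fun a _ => ?_
  have h1 : szT n u (sgT (i a) x) = (n.negOnePow : ℤ) • sgT (i' a) (szT n u x) := by
    induction x using DR.induction with
    | zero => simp
    | tmul w y =>
      rw [sgT_tmul, szT_tmul, szT_tmul, sgT_tmul, h, Om.sgz_sg, Om.sg_sgz]
      exact (smul_tmul _ _ _).symm
    | add y z hy hz => simp only [map_add, smul_add, hy, hz]
  have e1 : ∀ (k : ℤ) (w : Om ℂ A) (y : DR ℂ A V'), (k • w) • y = k • (w • y) :=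
    fun k w y => map_zsmul ((LinearMap.toSpanSingleton (Om ℂ A) _ y).toAddMonoidHom) k w
  have e2 : ∀ (k : ℤ) (w : Om ℂ A) (y : DR ℂ A V'), w • (k • y) = k • (w • y) :=
    fun k w y => map_zsmul (muE V' w) k y
  rw [szT_smul, h1, sgz_one' (hθ a), e1, e2, smul_smul, ← Units.val_mul,
    Int.units_mul_self, Units.val_one, one_smul]

variable (b : DB ℂ A) (K : DGM A) {i : Fin 3 → K.M.V →ₗ[A] K.M.V}

theorem nE_mem (hθ : ∀ a, θ a ∈ Om.gr ℂ A 1)
    (hi : ∀ a (m : ℤ) x, x ∈ K.M.gr m → i a x ∈ K.M.gr (m - 1)) (m : ℤ) :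
    ∀ x ∈ K.gr m, nE i θ x ∈ K.gr m := fun x hx => by
  rw [nE_apply]
  refine Submodule.sum_mem _ fun a _ => ?_
  have h := szT_mem (K := K) (L := K) (-1) (i a) (hi a) m x hx
  have e : szT (-1) (i a) = sgT (i a) := by
    rw [szT, sgT, Om.sgz, if_neg (by decide)]
  have h1 := DRg_smul_gr K 1 _ _ _ (hθ a) (e ▸ h)
  rwa [show m + -1 + ((1 : ℕ) : ℤ) = m by omega] at h1

theorem eE_mem (hθ : ∀ a, θ a ∈ Om.gr ℂ A 1)
    (hi : ∀ a (m : ℤ) x, x ∈ K.M.gr m → i a x ∈ K.M.gr (m - 1)) {m : ℤ} {x : DR ℂ A K.M.V}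
    (hx : x ∈ K.gr m) : eE i θ x ∈ K.gr m := ex_mem (nE_mem K hθ hi m) hx

/-- **The gauge identity** `D E = E (D - θ^a L_a)`. -/
theorem D_eE (κ : ℂ) (hθ : ∀ a, θ a ∈ Om.gr ℂ A 1) (hi : ∀ a b x, i a (i b x) = -i b (i a x))
    (ha : ∀ a v x, i a (K.C.act v x) = K.C.act v (i a x))
    (hb : ∀ a b x, lieOp K (i a) (i b x) - i b (lieOp K (i a) x) = ∑ c, (κ * eps a b c) • i c x)
    (mc : ∀ c, Om.d (θ c) = ∑ a, ∑ b, (κ / 2 * eps a b c) • (θ a * θ b)) (x : DR ℂ A K.M.V) :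
    K.D b (eE i θ x) = eE i θ (K.D b x - lamE (fun a => lieOp K (i a)) θ x) := by
  refine LinearMap.congr_fun (gauge (R := Module.End ℂ (DR ℂ A K.M.V)) κ (D := K.D b)
    (T := fun a => muE _ (θ a)) (L := fun a => lE (lieOp K (i a))) (jj hi)
    (fun a b => tt (hθ a) (hθ b)) (fun a b => jt _ (hθ b)) (fun a b => ?_) (fun c => ?_)
    (fun a => ?_) fun a b => ?_) x <;> refine LinearMap.ext fun x => ?_
  · exact DGM.lT_smul _ _ x
  · change K.D b (θ c • x) = _ - θ c • K.D b x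
    rw [D_smul, sg_one (hθ c), DR.neg_smul, mc, ← sub_eq_add_neg, Finset.sum_smul,
      LinearMap.sum_apply]
    congr 1
    refine Finset.sum_congr rfl fun a _ => ?_
    rw [Finset.sum_smul, LinearMap.sum_apply]
    refine Finset.sum_congr rfl fun a' _ => ?_
    rw [smul_assoc, mul_smul (θ a)]
    rfl
  · change K.D b (sgT (i a) x) = lT (lieOp K (i a)) x - sgT (i a) (K.D b x)
    rw [DGM.D_apply, DGM.D_apply, map_add, sgT_dR b K.C K.C _ (ha a), sgT_sgT, sgT_sgT, lieOp,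
      DGM.lT_add]
    abel
  · change lT _ (sgT (i b) x) = sgT (i b) (lT _ x) + _
    rw [LinearMap.sum_apply]
    induction x using DR.induction with
    | zero => simp
    | tmul w y =>
      rw [sgT_tmul, LinearMap.lTensor_tmul, LinearMap.lTensor_tmul, sgT_tmul,
        eq_add_of_sub_eq' (hb a b y), tmul_add, tmul_sum]
      congr 1
      refine Finset.sum_congr rfl fun c _ => ?_
      rw [← algebraMap_smul A, tmul_smul, algebraMap_smul]
      rfl
    | add y z hy hz =>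
      simp only [map_add, hy, hz, Finset.sum_add_distrib]
      abel

end

end Vale.Agent.P286EX
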